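import Vale.Agent.P113.Main

namespace Vale.Agent.Results.P113.HaltingCompiler

open Vale.Agent.P113

/-- A force compiler, one rational start point and one rational box detect halting for every
machine and input and for every positive viscosity. -/
theorem result : ∃ (a lo hi : Fin 3 → ℚ), (∀ i, lo i < hi i) ∧
    ∃ (T0 : ℝ) (compile : Machine × List ℕ → ForceCode), IsForceCompiler T0 compile ∧
      ∀ ν : ℝ, 0 < ν → ∀ M w, Detects a lo hi compile ν M w :=
  exists_compiler

end Vale.Agent.Results.P113.HaltingCompiler
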